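import Mathlib

/-!
Pointed chromatic functions of graphs in which the last two vertices are marked: the colour
sums that govern adding a vertex adjacent to the last one or the last two vertices.

`R` is the coefficient ring, `q` the parameter and `x` the variables (one for each colour).
-/

namespace Vale.Agent.P066.Two

open Finset Polynomial

variable {R : Type*} [CommRing R] {N : ℕ}

/-- The `q`-integer. -/
def qi (q : R) (k : ℕ) : R := ∑ i ∈ range k, q ^ i

/-- The difference of two `q`-integers. -/
def qd (q : R) (a r : ℕ) : R := qi q a - qi q r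

lemma qi_succ (q : R) (k : ℕ) : qi q (k + 1) = 1 + q * qi q k := by
  unfold qi
  rw [sum_range_succ', mul_sum, add_comm, pow_zero]
  simp_rw [pow_succ']

lemma qi_zero (q : R) : qi q 0 = 0 := by simp [qi]

lemma qi_one (q : R) : qi q 1 = 1 := by simp [qi]

lemma qi_two (q : R) : qi q 2 = 1 + q := by simp [qi, sum_range_succ]

lemma qi_add (q : R) (a b : ℕ) : qi q (a + b) = qi q a + q ^ a * qi q b := by
  unfold qi
  rw [sum_range_add, mul_sum]
  simp_rw [pow_add]

lemma qi_mul (q : R) (k : ℕ) : (q - 1) * qi q k = q ^ k - 1 := by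
  rw [qi, mul_comm, geom_sum_mul]

lemma qd_mul (q : R) (a r : ℕ) : (q - 1) * qd q a r = q ^ a - q ^ r := by
  rw [qd, mul_sub, qi_mul, qi_mul]; ring

/-- The weight of a pair of adjacent vertices coloured `c`, `d`, the first one smaller. -/
def wt (q : R) (c d : Fin N) : R := if c < d then q else if d < c then 1 else 0

lemma wt_lt {q : R} {c d : Fin N} (h : c < d) : wt q c d = q := if_pos h

lemma wt_gt {q : R} {c d : Fin N} (h : d < c) : wt q c d = 1 := by
  simp [wt, h, h.not_gt]

lemma wt_self (q : R) (c : Fin N) : wt q c c = 0 := by simp [wt]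

/-- The generating polynomial of the elementary symmetric functions. -/
noncomputable def genE (x : Fin N → R) : R[X] := ∏ s, (1 + C (x s) * X)

/-- The elementary symmetric functions. -/
noncomputable def esy (x : Fin N → R) (k : ℕ) : R := (genE x).coeff k

/-- The generating polynomial of the cliques that avoid the colour `c`. -/
noncomputable def genP (q : R) (x : Fin N → R) (c : Fin N) : R[X] :=
  ∏ s, (1 + C (wt q s c * x s) * X)

/-- A clique of `b` vertices before a vertex of colour `c`, over `[b]!`. -/
noncomputable def cl (q : R) (x : Fin N → R) (b : ℕ) (c : Fin N) : R := (genP q x c).coeff b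

/-- The pointed clique on `l` vertices, over `[l - 1]!`. -/
noncomputable def pt (q : R) (x : Fin N → R) (l : ℕ) (c : Fin N) : R :=
  (C (x c) * X * genP q x c).coeff l

lemma pt_succ (q : R) (x : Fin N → R) (l : ℕ) (c : Fin N) :
    pt q x (l + 1) c = x c * cl q x l c := by
  rw [pt, mul_assoc, coeff_C_mul, coeff_X_mul, cl]

lemma cl_zero (q : R) (x : Fin N → R) (c : Fin N) : cl q x 0 c = 1 := by
  simp [cl, genP, coeff_zero_eq_eval_zero, eval_prod]

lemma esy_zero (x : Fin N → R) : esy x 0 = 1 := by
  simp [esy, genE, coeff_zero_eq_eval_zero, eval_prod]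

lemma pt_one (q : R) (x : Fin N → R) (c : Fin N) : pt q x 1 c = x c := by
  rw [pt_succ, cl_zero, mul_one]

/-- The product in which the first `k` variables are scaled by `q`. -/
noncomputable def hyb (q : R) (x : Fin N → R) (k : ℕ) : R[X] :=
  ∏ s : Fin N, (1 + C ((if (s : ℕ) < k then q else 1) * x s) * X)

lemma hyb_zero (q : R) (x : Fin N → R) : hyb q x 0 = genE x := by simp [hyb, genE]

lemma hyb_top (q : R) (x : Fin N → R) : hyb q x N = (genE x).comp (C q * X) := by
  rw [hyb, genE, Polynomial.prod_comp]
  refine prod_congr rfl fun s _ => ?_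
  simp only [s.isLt, if_true, add_comp, one_comp, mul_comp, C_comp, X_comp]
  rw [C_mul]; ring

lemma hyb_lo (q : R) (x : Fin N → R) (c : Fin N) :
    hyb q x c = (1 + C (x c) * X) * genP q x c := by
  rw [hyb, genP, ← mul_prod_erase univ _ (mem_univ c),
    ← mul_prod_erase (a := c) univ (fun s => 1 + C (wt q s c * x s) * X) (mem_univ c)]
  simp only [lt_irrefl, if_false, one_mul, wt_self, zero_mul, C_0, add_zero]
  congr 1
  refine prod_congr rfl fun s hs => ?_
  rcases lt_or_gt_of_ne (ne_of_mem_erase hs) with h | h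
  · rw [wt_lt h, if_pos (by exact h)]
  · rw [wt_gt h, if_neg (by exact not_lt.2 (le_of_lt h))]

lemma hyb_hi (q : R) (x : Fin N → R) (c : Fin N) :
    hyb q x (c + 1) = (1 + C q * C (x c) * X) * genP q x c := by
  rw [hyb, genP, ← mul_prod_erase univ _ (mem_univ c),
    ← mul_prod_erase (a := c) univ (fun s => 1 + C (wt q s c * x s) * X) (mem_univ c)]
  simp only [Nat.lt_succ_self, if_true, C_mul, wt_self, C_0, zero_mul, add_zero, one_mul]
  congr 1
  refine prod_congr rfl fun s hs => ?_
  rcases lt_or_gt_of_ne (ne_of_mem_erase hs) with h | h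
  · rw [wt_lt h, if_pos (Nat.lt_succ_of_lt h)]
  · rw [wt_gt h, if_neg (by omega)]

/-- The increment of `hyb` at `c`. -/
noncomputable def dlt (q : R) (x : Fin N → R) (c : Fin N) : R[X] :=
  C (q - 1) * (C (x c) * X * genP q x c)

lemma sum_dlt_lt (q : R) (x : Fin N → R) {k : ℕ} (hk : k ≤ N) :
    ∑ c : Fin N, (if (c : ℕ) < k then dlt q x c else 0) = hyb q x k - hyb q x 0 := by
  induction k with
  | zero => simp
  | succ k ih =>
    have key : ∀ c : Fin N, (if (c : ℕ) < k + 1 then dlt q x c else 0) =
        (if (c : ℕ) < k then dlt q x c else 0) +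
          (if c = ⟨k, by omega⟩ then dlt q x c else 0) := by
      intro c
      simp only [Fin.ext_iff]
      split_ifs <;> first | omega | simp
    simp_rw [key, sum_add_distrib, ih (by omega), sum_ite_eq' univ, mem_univ, if_true]
    have h1 := hyb_lo q x ⟨k, by omega⟩
    have h2 := hyb_hi q x ⟨k, by omega⟩
    simp only at h1 h2
    rw [h1, h2, dlt, C_sub, C_1]
    ring

variable [IsDomain R]

lemma cancel_q {q : R} (hq : q ≠ 1) {a b : R} (h : (q - 1) * a = (q - 1) * b) : a = b :=
  mul_left_cancel₀ (sub_ne_zero.2 hq) h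

omit [IsDomain R] in
lemma coeff_scale (q : R) (x : Fin N → R) (b : ℕ) :
    ((genE x).comp (C q * X)).coeff b = q ^ b * esy x b := by
  rw [comp_C_mul_X_coeff, esy, mul_comm]

/-- All colours. -/
lemma sum_pt {q : R} (hq : q ≠ 1) (x : Fin N → R) (b : ℕ) :
    ∑ c, pt q x b c = qi q b * esy x b := by
  refine cancel_q hq ?_
  have h := congrArg (fun p : R[X] => p.coeff b) (sum_dlt_lt q x (le_refl N))
  simp only [Fin.is_lt, if_true, dlt, finsetSum_coeff, coeff_C_mul, coeff_sub, hyb_top, hyb_zero,
    coeff_scale] at h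
  rw [mul_sum, ← mul_assoc, qi_mul]
  simp only [pt]
  rw [h, esy]; ring

/-- Colours different from that of one neighbour. -/
lemma sum_wt {q : R} (hq : q ≠ 1) (x : Fin N → R) (b : ℕ) (d : Fin N) :
    ∑ c, wt q c d * pt q x b c = cl q x b d + qd q b 1 * esy x b := by
  refine cancel_q hq ?_
  have key : ∀ c : Fin N, C (wt q c d) * dlt q x c =
      C q * (if (c : ℕ) < d then dlt q x c else 0) +
        ((if (c : ℕ) < N then dlt q x c else 0) -
          (if (c : ℕ) < d + 1 then dlt q x c else 0)) := by
    intro c
    rcases lt_trichotomy c d with h | rfl | h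
    · have : (c : ℕ) < d := h
      rw [wt_lt h, if_pos this, if_pos c.isLt, if_pos (by omega)]; ring
    · simp [wt_self]
    · have : (d : ℕ) < c := h
      rw [wt_gt h, if_neg (by omega), if_pos c.isLt, if_neg (by omega)]; simp
  have h : ∑ c, C (wt q c d) * dlt q x c =
      C (q - 1) * genP q x d + (genE x).comp (C q * X) - C q * genE x := by
    simp_rw [key, sum_add_distrib, sum_sub_distrib, ← mul_sum, sum_dlt_lt q x d.isLt.le,
      sum_dlt_lt q x (show (d : ℕ) + 1 ≤ N from d.isLt), sum_dlt_lt q x (le_refl N),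
      hyb_top, hyb_zero, hyb_lo, hyb_hi, C_sub, C_1]
    ring
  have h' := congrArg (fun p : R[X] => p.coeff b) h
  simp only [dlt, finsetSum_coeff, coeff_C_mul, coeff_add, coeff_sub, coeff_scale] at h'
  rw [mul_add, ← mul_assoc, qd_mul, mul_sum, pow_one]
  simp only [esy, cl, pt] at h' ⊢
  linear_combination (norm := (simp only [Finset.sum_congr rfl fun c _ => mul_left_comm (q - 1) (wt q c d) _]; ring)) h'

/-- Colours different from those of two neighbours. -/
lemma sum_wt_wt {q : R} (hq : q ≠ 1) (x : Fin N → R) (b : ℕ) {d g : Fin N} (hdg : d < g) :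
    ∑ c, wt q c d * wt q c g * pt q x b c =
      q * cl q x b d + cl q x b g + qd q b 2 * esy x b := by
  refine cancel_q hq ?_
  have hdg' : (d : ℕ) < g := hdg
  have key : ∀ c : Fin N, C (wt q c d * wt q c g) * dlt q x c =
      C q * C q * (if (c : ℕ) < d then dlt q x c else 0) +
        (C q * ((if (c : ℕ) < g then dlt q x c else 0) -
          (if (c : ℕ) < d + 1 then dlt q x c else 0)) +
        ((if (c : ℕ) < N then dlt q x c else 0) -
          (if (c : ℕ) < g + 1 then dlt q x c else 0))) := by
    intro c
    have hN := c.isLt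
    rw [C_mul]
    rcases lt_trichotomy c d with h | rfl | h
    · have : (c : ℕ) < d := h
      rw [wt_lt h, wt_lt (h.trans hdg), if_pos this, if_pos (by omega), if_pos (by omega),
        if_pos hN, if_pos (by omega)]
      ring
    · simp [wt_self, hdg', show (c : ℕ) < g + 1 by omega]
    · have hd : (d : ℕ) < c := h
      rw [wt_gt h, if_neg (show ¬ (c : ℕ) < d by omega),
        if_neg (show ¬ (c : ℕ) < d + 1 by omega)]
      rcases lt_trichotomy c g with h' | rfl | h'
      · have : (c : ℕ) < g := h'
        rw [wt_lt h', if_pos this, if_pos hN, if_pos (by omega)]; simp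
      · simp [wt_self, hN]
      · have : (g : ℕ) < c := h'
        rw [wt_gt h', if_neg (by omega), if_pos hN, if_neg (by omega)]; simp
  have h : ∑ c, C (wt q c d * wt q c g) * dlt q x c =
      C (q - 1) * (C q * genP q x d + genP q x g) + (genE x).comp (C q * X) -
        C q * C q * genE x := by
    simp_rw [key, sum_add_distrib, ← mul_sum, sum_sub_distrib, sum_dlt_lt q x d.isLt.le,
      sum_dlt_lt q x g.isLt.le, sum_dlt_lt q x (show (d : ℕ) + 1 ≤ N from d.isLt),
      sum_dlt_lt q x (show (g : ℕ) + 1 ≤ N from g.isLt), sum_dlt_lt q x (le_refl N),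
      hyb_top, hyb_zero, hyb_lo, hyb_hi, C_sub, C_1]
    ring
  have h' := congrArg (fun p : R[X] => p.coeff b) h
  simp only [dlt, finsetSum_coeff, ← C_mul, coeff_C_mul, coeff_add, coeff_sub, coeff_scale] at h'
  rw [mul_add, ← mul_assoc (q - 1) (qd q b 2), qd_mul, mul_sum, sq]
  simp only [esy, cl, pt] at h' ⊢
  linear_combination (norm := (simp only [Finset.sum_congr rfl fun c _ => mul_left_comm (q - 1) (wt q c d * wt q c g) _]; ring)) h'

/-- Functions of the colour of the marked vertex. -/
abbrev V1 (N : ℕ) (R : Type*) := Fin N → R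

/-- Functions of the colours of the two marked vertices. -/
abbrev V2 (N : ℕ) (R : Type*) := Fin N → Fin N → R

/-- Add a vertex adjacent to the marked one, and mark both. -/
def up (q : R) (x : Fin N → R) : V1 N R →ₗ[R] V2 N R where
  toFun φ := fun c d => φ c * x d * wt q c d
  map_add' φ ψ := by funext c d; simp [add_mul]
  map_smul' a φ := by funext c d; simp [mul_assoc]

/-- Add a vertex adjacent to both marked vertices, and mark it and the newer of them. -/
def push (q : R) (x : Fin N → R) : V2 N R →ₗ[R] V2 N R where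
  toFun ψ := fun d g => x g * wt q d g * ∑ c, wt q c g * ψ c d
  map_add' φ ψ := by funext d g; simp [mul_add, sum_add_distrib]
  map_smul' a φ := by
    funext d g
    simp only [Pi.smul_apply, smul_eq_mul, RingHom.id_apply, mul_sum]
    exact sum_congr rfl fun c _ => by ring

/-- Forget the older of the two marked vertices. -/
def forget : V2 N R →ₗ[R] V1 N R where
  toFun ψ := fun d => ∑ c, ψ c d
  map_add' φ ψ := by funext d; simp [sum_add_distrib]
  map_smul' a φ := by funext d; simp [mul_sum]

/-- The antisymmetric state of two pointed cliques. -/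
noncomputable def asym (q : R) (x : Fin N → R) (a b : ℕ) : V2 N R :=
  fun c d => pt q x a c * pt q x b d - pt q x b c * pt q x a d

lemma forget_up {q : R} (hq : q ≠ 1) (x : Fin N → R) (m : ℕ) :
    forget (up q x (pt q x m)) =
      pt q x (m + 1) + (qd q m 1 * esy x m) • pt q x 1 := by
  funext d
  simp only [forget, up, LinearMap.coe_mk, AddHom.coe_mk, Pi.add_apply, Pi.smul_apply,
    smul_eq_mul, pt_succ q x m, pt_one]
  have h := sum_wt hq x m d
  rw [show ∑ c, pt q x m c * x d * wt q c d = x d * ∑ c, wt q c d * pt q x m c by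
    rw [mul_sum]; exact sum_congr rfl fun c _ => by ring, h]
  ring

lemma forget_asym {q : R} (hq : q ≠ 1) (x : Fin N → R) (a b : ℕ) :
    forget (asym q x a b) =
      (qi q a * esy x a) • pt q x b - (qi q b * esy x b) • pt q x a := by
  funext d
  simp [forget, asym, sum_sub_distrib, ← sum_mul, sum_pt hq x]

omit [IsDomain R] in
lemma forget_push_asym {q : R} (x : Fin N → R) (a b : ℕ) :
    forget (push q x (asym q x a b)) = 0 := by
  funext g
  simp only [forget, push, asym, LinearMap.coe_mk, AddHom.coe_mk, Pi.zero_apply, mul_sum,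
    mul_sub, sum_sub_distrib, sub_eq_zero]
  rw [sum_comm]
  exact sum_congr rfl fun c _ => sum_congr rfl fun d _ => by ring

lemma push_up {q : R} (hq : q ≠ 1) (x : Fin N → R) (m : ℕ) :
    push q x (up q x (pt q x m)) = qi q 2 • up q x (pt q x (m + 1)) +
      (qd q m 2 * esy x m) • up q x (pt q x 1) + q • asym q x 1 (m + 1) := by
  funext d g
  simp only [push, up, asym, LinearMap.coe_mk, AddHom.coe_mk, Pi.add_apply, Pi.smul_apply,
    smul_eq_mul, pt_succ q x m, pt_one, qi_two]
  rw [show ∑ c, wt q c g * (pt q x m c * x d * wt q c d) =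
      x d * ∑ c, wt q c d * wt q c g * pt q x m c by
    rw [mul_sum]; exact sum_congr rfl fun c _ => by ring]
  rcases lt_trichotomy d g with h | rfl | h
  · rw [sum_wt_wt hq x m h, wt_lt h]; ring
  · simp [wt_self]; right; ring
  · rw [sum_congr rfl fun c _ => show wt q c d * wt q c g * pt q x m c =
      wt q c g * wt q c d * pt q x m c by ring, sum_wt_wt hq x m h, wt_gt h]
    ring

lemma push_push_asym {q : R} (hq : q ≠ 1) (x : Fin N → R) (a b : ℕ) :
    push q x (push q x (asym q x a b)) = q • asym q x (a + 1) (b + 1) +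
      (esy x a • (qd q a 1 • push q x (up q x (pt q x b)) +
          (q * qi q a - qi q 2 * qd q a 1) • up q x (pt q x (b + 1))) -
        esy x b • (qd q b 1 • push q x (up q x (pt q x a)) +
          (q * qi q b - qi q 2 * qd q b 1) • up q x (pt q x (a + 1)))) := by
  funext e g
  have hR : ∀ m, push q x (up q x (pt q x m)) e g =
      x e * x g * wt q e g * ∑ c, wt q c e * wt q c g * pt q x m c := by
    intro m
    simp only [push, up, LinearMap.coe_mk, AddHom.coe_mk, mul_sum]
    exact sum_congr rfl fun c _ => by ring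
  have h1 : push q x (push q x (asym q x a b)) e g =
      (cl q x a e + qd q a 1 * esy x a) * push q x (up q x (pt q x b)) e g -
        (cl q x b e + qd q b 1 * esy x b) * push q x (up q x (pt q x a)) e g := by
    rw [hR, hR, ← sum_wt hq x a e, ← sum_wt hq x b e]
    simp only [push, asym, LinearMap.coe_mk, AddHom.coe_mk, mul_sum, sum_mul, mul_sub,
      sum_sub_distrib]
    congr 1 <;> exact sum_congr rfl fun d _ => sum_congr rfl fun c _ => by ring
  have hI : ∀ m, push q x (up q x (pt q x m)) e g =
      qi q 2 * (x e * cl q x m e * x g * wt q e g) + qd q m 2 * esy x m * (x e * x g * wt q e g) +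
        q * (x e * (x g * cl q x m g) - x e * cl q x m e * x g) := by
    intro m
    rw [push_up hq x m]
    simp [up, asym, pt_succ q x m, pt_one]
  rw [h1]
  simp only [Pi.add_apply, Pi.sub_apply, Pi.smul_apply, smul_eq_mul, hI]
  simp only [up, asym, LinearMap.coe_mk, AddHom.coe_mk, pt_succ, qd, qi_two, qi_one]
  ring

end Vale.Agent.P066.Two
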