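import Vale.Agent.P066.Two.Graph

/-!
Positive families as combinations of elementary symmetric functions with coefficients in `ℕ[q]`,
and the identification of the total weight with the chromatic quasisymmetric function.
-/

namespace Vale.Agent.P066.Two

open Finset

lemma esy_eq_esymm (N a : ℕ) : esy (xv N) a = MvPolynomial.esymm (Fin N) (Polynomial ℤ) a := by
  have e : ∀ t : Finset (Fin N), (∏ i ∈ t, Polynomial.C (xv N i) * Polynomial.X) =
      Polynomial.C (∏ i ∈ t, xv N i) * Polynomial.X ^ t.card := by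
    intro t
    rw [prod_mul_distrib, prod_const, map_prod]
  rw [esy, genE, prod_one_add, Polynomial.finsetSum_coeff, MvPolynomial.esymm,
    powersetCard_eq_filter, sum_filter]
  refine sum_congr rfl fun t _ => ?_
  rw [e, Polynomial.coeff_C_mul, Polynomial.coeff_X_pow]
  simp only [eq_comm (a := a), mul_ite, mul_one, mul_zero]
  rfl

/-- The value of a term of a formal expansion. -/
noncomputable def termVal (N : ℕ) (p : Polynomial ℕ × Multiset ℕ) : PR N :=
  MvPolynomial.C (p.1.map (Nat.castRingHom ℤ)) *
    (p.2.map (MvPolynomial.esymm (Fin N) (Polynomial ℤ))).prod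

lemma PosS.exists_list {d : ℤ} {S : Sc} (h : PosS d S) :
    ∃ L : List (Polynomial ℕ × Multiset ℕ),
      (∀ p ∈ L, (p.2.sum : ℤ) = d ∧ ∀ i ∈ p.2, 0 < i) ∧ ∀ N, S N = (L.map (termVal N)).sum := by
  induction h with
  | zero d => exact ⟨[], by simp, fun N => by simp⟩
  | add _ _ ih ih' =>
    obtain ⟨L, hL, hS⟩ := ih
    obtain ⟨L', hL', hS'⟩ := ih'
    refine ⟨L ++ L', fun p hp => (List.mem_append.1 hp).elim (hL p) (hL' p), fun N => ?_⟩
    simp [hS, hS']
  | scale _ ih =>
    obtain ⟨L, hL, hS⟩ := ih
    refine ⟨L.map fun p => (Polynomial.X * p.1, p.2), fun p hp => ?_, fun N => ?_⟩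
    · obtain ⟨p', hp', rfl⟩ := List.mem_map.1 hp
      exact hL p' hp'
    · simp only []
      rw [hS, ← List.sum_map_mul_left, List.map_map]
      congr 1
      refine List.map_congr_left fun p _ => ?_
      simp [termVal, qv, mul_assoc]
  | one => exact ⟨[(1, 0)], by simp, fun N => by simp [termVal]⟩
  | @esy d S a _ ih =>
    obtain ⟨L, hL, hS⟩ := ih
    rcases Nat.eq_zero_or_pos a with rfl | ha
    · exact ⟨L, by simpa using hL, fun N => by simp [esy_zero, hS]⟩
    refine ⟨L.map fun p => (p.1, a ::ₘ p.2), fun p hp => ?_, fun N => ?_⟩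
    · obtain ⟨p', hp', rfl⟩ := List.mem_map.1 hp
      obtain ⟨h1, h2⟩ := hL p' hp'
      refine ⟨by simp only [Multiset.sum_cons, Nat.cast_add]; omega, fun i hi => ?_⟩
      rcases Multiset.mem_cons.1 hi with rfl | hi
      · exact ha
      · exact h2 i hi
    · simp only []
      rw [hS, ← List.sum_map_mul_left, List.map_map]
      congr 1
      refine List.map_congr_left fun p _ => ?_
      simp only [Function.comp_apply, termVal, Multiset.map_cons, Multiset.prod_cons, esy_eq_esymm]
      ring

lemma PosS.exists_coeff {n : ℕ} {S : Sc} (h : PosS (n : ℤ) S) :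
    ∃ c : Nat.Partition n → Polynomial ℕ, ∀ N, S N =
      ∑ μ, MvPolynomial.C ((c μ).map (Nat.castRingHom ℤ)) *
        MvPolynomial.esymmPart (Fin N) (Polynomial ℤ) μ := by
  obtain ⟨L, hL, hS⟩ := h.exists_list
  have hsum : ∀ p ∈ L, p.2.sum = n := fun p hp => by exact_mod_cast (hL p hp).1
  refine ⟨fun μ => ((L.filter fun p => p.2 = μ.parts).map Prod.fst).sum, fun N => ?_⟩
  rw [hS N]
  clear h hS
  induction L with
  | nil => simp
  | cons p L ih =>
    have hp := hL p List.mem_cons_self
    have key := ih (fun p' hp' => hL p' (List.mem_cons_of_mem _ hp'))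
      fun p' hp' => hsum p' (List.mem_cons_of_mem _ hp')
    rw [List.map_cons, List.sum_cons, key]
    obtain ⟨μ, hμ⟩ : ∃ μ : Nat.Partition n, μ.parts = p.2 :=
      ⟨⟨p.2, fun {i} hi => hp.2 i hi, hsum p List.mem_cons_self⟩, rfl⟩
    have e : ∀ ν : Nat.Partition n, MvPolynomial.C
          ((((p :: L).filter fun p' => p'.2 = ν.parts).map Prod.fst).sum.map (Nat.castRingHom ℤ)) *
        MvPolynomial.esymmPart (Fin N) (Polynomial ℤ) ν =
      (if ν = μ then termVal N p else 0) + MvPolynomial.C
          (((L.filter fun p' => p'.2 = ν.parts).map Prod.fst).sum.map (Nat.castRingHom ℤ)) *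
        MvPolynomial.esymmPart (Fin N) (Polynomial ℤ) ν := by
      intro ν
      rw [List.filter_cons]
      by_cases hν : ν = μ
      · subst hν
        simp [hμ, termVal, MvPolynomial.esymmPart, add_mul]
      · have : p.2 ≠ ν.parts := fun e => hν (Nat.Partition.ext (e ▸ hμ.symm))
        simp [this, hν]
    rw [sum_congr rfl fun ν _ => e ν, sum_add_distrib, sum_ite_eq' univ, if_pos (mem_univ μ)]

variable (h : ℕ → ℕ)

/-- The number of ascending edges. -/
def ascents {N r : ℕ} (f : Fin r → Fin N) : ℕ :=
  (univ.filter fun p : Fin r × Fin r => p.1 < p.2 ∧ (p.2 : ℕ) ≤ h p.1 ∧ f p.1 < f p.2).card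

lemma colWt_eq {N : ℕ} : ∀ (r : ℕ) (f : Fin r → Fin N), colWt h r f =
    (if ∀ a b : Fin r, a < b → (b : ℕ) ≤ h a → f a ≠ f b then qv N ^ ascents h f else 0) *
      ∏ a, xv N (f a) := by
  intro r
  induction r with
  | zero => intro f; simp [colWt, ascents]
  | succ r ih =>
    intro f
    have hw : ∀ (a : ℕ) (c d : Fin N), edgeWt h a r c d =
        (if r ≤ h a → c ≠ d then qv N ^ (if r ≤ h a ∧ c < d then 1 else 0) else 0) := by
      intro a c d
      unfold edgeWt
      by_cases e : r ≤ h a
      · rcases lt_trichotomy c d with g | rfl | g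
        · simp [e, wt_lt g, g, g.ne]
        · simp [e, wt_self]
        · simp [e, wt_gt g, g.not_gt, g.ne']
      · simp [e]
    have hp : (∏ a : Fin r, edgeWt h a r (f a.castSucc) (f (Fin.last r))) =
        if ∀ a : Fin r, r ≤ h a → f a.castSucc ≠ f (Fin.last r) then
          qv N ^ (∑ a : Fin r, if r ≤ h a ∧ f a.castSucc < f (Fin.last r) then 1 else 0)
        else 0 := by
      simp only [hw]
      rw [prod_ite_zero, prod_pow_eq_pow_sum]
      simp
    have hprop : (∀ a b : Fin (r + 1), a < b → (b : ℕ) ≤ h a → f a ≠ f b) ↔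
        (∀ a b : Fin r, a < b → (b : ℕ) ≤ h a → Fin.init f a ≠ Fin.init f b) ∧
          ∀ a : Fin r, r ≤ h a → f a.castSucc ≠ f (Fin.last r) := by
      simp only [Fin.forall_fin_succ', Fin.castSucc_lt_castSucc_iff, Fin.val_castSucc,
        Fin.castSucc_lt_last, Fin.val_last, Fin.init, lt_irrefl, forall_const, IsEmpty.forall_iff,
        not_lt.2 (Fin.castSucc_lt_last _).le, and_true, forall_and, implies_true]
    have hasc : ascents h f = ascents h (Fin.init f) +
        ∑ a : Fin r, if r ≤ h a ∧ f a.castSucc < f (Fin.last r) then 1 else 0 := by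
      rw [ascents, ascents, card_filter, card_filter, Fintype.sum_prod_type, Fintype.sum_prod_type]
      simp only [Fin.sum_univ_castSucc,
        Fin.castSucc_lt_castSucc_iff, Fin.val_castSucc, Fin.val_last, Fin.castSucc_lt_last,
        Fin.init, sum_add_distrib, lt_irrefl, false_and, if_false, true_and,
        not_lt.2 (Fin.castSucc_lt_last _).le, sum_const_zero, add_zero]
      congr 1
    have mul_ite : ∀ (A B : Prop) [Decidable A] [Decidable B] (x y P z : PR N),
        (if A then x else 0) * P * ((if B then y else 0) * z) =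
          (if A ∧ B then x * y else 0) * (P * z) := by
      intro A B _ _ x y P z
      by_cases g1 : A <;> by_cases g2 : B <;> simp [g1, g2]
      ring
    rw [colWt, ih (Fin.init f), hp, Fin.prod_univ_castSucc (fun a => xv N (f a)), mul_ite, hasc,
      pow_add]
    exact congrArg (· * _) (if_congr hprop.symm rfl rfl)

end Vale.Agent.P066.Two
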