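import Vale.Agent.P066.Two.Pos

/-!
The chromatic quasisymmetric function of a graph in which every vertex is adjacent to at most
its two successors, assembled from the transfer operators.
-/

namespace Vale.Agent.P066.Two

open Finset

variable (h : ℕ → ℕ)

/-- The factor of vertex `a` and the later vertex `r`. -/
noncomputable def edgeWt {N : ℕ} (a r : ℕ) (c d : Fin N) : PR N :=
  if r ≤ h a then wt (qv N) c d else 1

/-- The weight of a colouring. -/
noncomputable def colWt {N : ℕ} : ∀ r : ℕ, (Fin r → Fin N) → PR N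
  | 0, _ => 1
  | r + 1, f => colWt r (Fin.init f) *
      ((∏ a : Fin r, edgeWt h a r (f a.castSucc) (f (Fin.last r))) * xv N (f (Fin.last r)))

/-- The total weight. -/
noncomputable def tot (r : ℕ) : Sc := fun N => ∑ f : Fin r → Fin N, colWt h r f

/-- The weight with the last colour marked. -/
noncomputable def mark (r : ℕ) : Fam := fun N c =>
  ∑ f : Fin r → Fin N, colWt h (r + 1) (Fin.snoc f c)

/-- The weight with the last two colours marked. -/
noncomputable def mark2 (r : ℕ) : ∀ N, V2 N (PR N) := fun N c d =>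
  ∑ f : Fin r → Fin N, colWt h (r + 2) (Fin.snoc (Fin.snoc f c) d)

lemma sum_snoc {N r : ℕ} {α : Type*} [AddCommMonoid α] (F : (Fin (r + 1) → Fin N) → α) :
    ∑ f, F f = ∑ c : Fin N, ∑ f : Fin r → Fin N, F (Fin.snoc f c) := by
  rw [← (Fin.snocEquiv fun _ : Fin (r + 1) => Fin N).sum_comp F, Fintype.sum_prod_type]
  rfl

lemma colWt_snoc {N r : ℕ} (f : Fin r → Fin N) (c : Fin N) :
    colWt h (r + 1) (Fin.snoc f c) =
      colWt h r f * ((∏ a : Fin r, edgeWt h a r (f a) c) * xv N c) := by
  simp [colWt, Fin.init_snoc]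

lemma tot_succ (r N : ℕ) : tot h (r + 1) N = ∑ c, mark h r N c := sum_snoc _

lemma mark_succ (r N : ℕ) : mark h (r + 1) N = forget (mark2 h r N) := by
  funext d
  exact sum_snoc (fun f : Fin (r + 1) → Fin N => colWt h (r + 1 + 1) (Fin.snoc f d))

variable {h} (hm : Monotone h) (h2 : ∀ a, h a ≤ a + 2)
include hm h2

lemma mark2_push (r N : ℕ) (e1 : r + 2 ≤ h r) :
    mark2 h (r + 1) N = push (qv N) (xv N) (mark2 h r N) := by
  funext c d
  have e2 : r + 2 ≤ h (r + 1) := e1.trans (hm (Nat.le_succ r))
  simp only [mark2, push, LinearMap.coe_mk, AddHom.coe_mk, mul_sum]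
  rw [sum_snoc]
  refine sum_congr rfl fun b _ => sum_congr rfl fun f _ => ?_
  rw [colWt_snoc]
  rw [Fin.prod_univ_castSucc, Fin.prod_univ_castSucc]
  have e3 : ∀ a : Fin r, edgeWt (N := N) h a (r + 2) (f a) d = 1 := by
    intro a
    rw [edgeWt, if_neg]
    have := h2 a
    omega
  simp only [Fin.snoc_castSucc, Fin.snoc_last, Fin.val_castSucc, Fin.val_last]
  rw [prod_eq_one fun a _ => e3 a, edgeWt, if_pos (by omega), edgeWt, if_pos (by omega)]
  ring

omit hm h2 in
lemma mark2_up (r N : ℕ) (e1 : r + 1 ≤ h r) (e2 : ∀ a : Fin r, h a < r + 1) :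
    mark2 h r N = up (qv N) (xv N) (mark h r N) := by
  funext c d
  simp only [mark2, mark, up, LinearMap.coe_mk, AddHom.coe_mk, sum_mul]
  refine sum_congr rfl fun f _ => ?_
  rw [colWt_snoc]
  rw [Fin.prod_univ_castSucc]
  simp only [Fin.snoc_castSucc, Fin.snoc_last, Fin.val_castSucc, Fin.val_last]
  rw [prod_eq_one fun a _ => by rw [edgeWt, if_neg (by have := e2 a; omega)],
    edgeWt, if_pos e1]
  ring

omit hm h2 in
lemma mark_isolated (r N : ℕ) (e : ∀ a : Fin r, h a < r) :
    mark h r N = fun c => tot h r N * xv N c := by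
  funext c
  simp only [mark, tot, sum_mul]
  refine sum_congr rfl fun f _ => ?_
  rw [colWt_snoc, prod_eq_one fun a _ => by rw [edgeWt, if_neg (by have := e a; omega)], one_mul]

/-- Positivity for the graph on the first `r` vertices and its marked forms. -/
theorem all_pos : ∀ r : ℕ, PosS r (tot h r) ∧ Pos (r + 1) (mark h r) ∧
    (r + 1 ≤ h r → Pos2 (r + 2) (mark2 h r)) := by
  intro r
  induction r with
  | zero =>
    have h0 : PosS ((0 : ℕ) : ℤ) (tot h 0) :=
      (PosS.one.cast (by simp)).congr fun N => by simp [tot, colWt]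
    have h1 : Pos ((0 : ℕ) + 1) (mark h 0) :=
      (h0.isolated).congr fun N => mark_isolated 0 N fun a => a.elim0
    exact ⟨h0, h1, fun e => fun j =>
      ((h1.up j).cast (by ring)).congr fun N => by rw [mark2_up 0 N e fun a => a.elim0]⟩
  | succ r ih =>
    obtain ⟨iA, iB, iC⟩ := ih
    have h0 : PosS ((r + 1 : ℕ) : ℤ) (tot h (r + 1)) :=
      (iB.total.cast (by push_cast; ring)).congr fun N => tot_succ h r N
    have h1 : Pos (((r + 1 : ℕ) : ℤ) + 1) (mark h (r + 1)) := by
      by_cases e : r + 1 ≤ h r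
      · exact ((iC e).forget.cast (by push_cast; ring)).congr fun N => mark_succ h r N
      · refine h0.isolated.congr fun N => mark_isolated (r + 1) N fun a => ?_
        have := hm (show (a : ℕ) ≤ r by omega)
        omega
    refine ⟨h0, h1, fun e j => ?_⟩
    by_cases e' : r + 2 ≤ h r
    · exact (((iC (by omega)).push j).cast (by push_cast; ring)).congr fun N => by
        rw [mark2_push hm h2 r N e']
    · refine ((h1.up j).cast (by push_cast; ring)).congr fun N => ?_
      rw [mark2_up (r + 1) N e fun a => ?_]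
      have := hm (show (a : ℕ) ≤ r by omega)
      omega

end Vale.Agent.P066.Two
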