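import Vale.Agent.P066.Two.SumRule

/-!
Positivity in the pointed elementary basis, uniformly in the number of variables.
-/

namespace Vale.Agent.P066.Two

open Finset

/-- Polynomials in `N` variables over `ℤ[q]`. -/
abbrev PR (N : ℕ) := MvPolynomial (Fin N) (Polynomial ℤ)

/-- The parameter `q`. -/
noncomputable def qv (N : ℕ) : PR N := MvPolynomial.C Polynomial.X

/-- The variables. -/
noncomputable def xv (N : ℕ) : Fin N → PR N := MvPolynomial.X

lemma qv_ne_one (N : ℕ) : qv N ≠ 1 := by
  rw [qv, ← MvPolynomial.C_1, (MvPolynomial.C_injective _ _).ne_iff]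
  exact fun h => by simpa using congrArg Polynomial.natDegree h

/-- Families of scalars, one for each number of variables. -/
abbrev Sc := ∀ N, PR N

/-- Families of pointed functions. -/
abbrev Fam := ∀ N, V1 N (PR N)

/-- `φ` is homogeneous of degree `d` and positive in the pointed elementary basis. -/
inductive Pos : ℤ → Fam → Prop
  | zero (d : ℤ) : Pos d fun _ => 0
  | add {d : ℤ} {φ ψ : Fam} : Pos d φ → Pos d ψ → Pos d fun N => φ N + ψ N
  | scale {d : ℤ} {φ : Fam} : Pos d φ → Pos d fun N => qv N • φ N
  | base {l : ℕ} : 1 ≤ l → Pos l fun N => pt (qv N) (xv N) l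
  | esy {d : ℤ} {φ : Fam} (a : ℕ) : Pos d φ → Pos (d + a) fun N => esy (xv N) a • φ N

/-- `S` is homogeneous of degree `d` and positive in the elementary basis. -/
inductive PosS : ℤ → Sc → Prop
  | zero (d : ℤ) : PosS d fun _ => 0
  | add {d : ℤ} {S T : Sc} : PosS d S → PosS d T → PosS d fun N => S N + T N
  | scale {d : ℤ} {S : Sc} : PosS d S → PosS d fun N => qv N * S N
  | one : PosS 0 fun _ => 1
  | esy {d : ℤ} {S : Sc} (a : ℕ) : PosS d S → PosS (d + a) fun N => esy (xv N) a * S N

lemma Pos.cast {d d' : ℤ} {φ : Fam} (h : Pos d φ) (e : d = d') : Pos d' φ := e ▸ h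

lemma Pos.congr {d : ℤ} {φ ψ : Fam} (h : Pos d φ) (e : ∀ N, ψ N = φ N) : Pos d ψ := by
  rwa [funext e]

lemma PosS.congr {d : ℤ} {S T : Sc} (h : PosS d S) (e : ∀ N, T N = S N) : PosS d T := by
  rwa [funext e]

lemma PosS.cast {d d' : ℤ} {S : Sc} (h : PosS d S) (e : d = d') : PosS d' S := e ▸ h

lemma Pos.sum {d : ℤ} {ι : Type*} (s : Finset ι) {F : ι → Fam} (h : ∀ i ∈ s, Pos d (F i)) :
    Pos d fun N => ∑ i ∈ s, F i N := by
  classical
  induction s using Finset.induction_on with
  | empty => simpa using Pos.zero d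
  | insert a s ha ih =>
    refine ((h a (mem_insert_self a s)).add (ih fun i hi => h i (mem_insert_of_mem hi))).congr
      fun N => ?_
    rw [sum_insert ha]

/-- Scalars that preserve positivity. -/
def NN (c : Sc) : Prop := ∀ d φ, Pos d φ → Pos d fun N => c N • φ N

lemma NN.mul {a b : Sc} (ha : NN a) (hb : NN b) : NN fun N => a N * b N := fun d φ h =>
  (ha d _ (hb d φ h)).congr fun _ => mul_smul _ _ _

lemma NN.qpow (k : ℕ) : NN fun N => qv N ^ k := by
  induction k with
  | zero => exact fun d φ h => h.congr fun N => by simp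
  | succ k ih => exact fun d φ h => (ih d _ h.scale).congr fun N => by simp only [pow_succ, mul_smul]

lemma NN.qi (k : ℕ) : NN fun N => qi (qv N) k := fun d φ h =>
  (Pos.sum (range k) (F := fun i N => qv N ^ i • φ N) fun i _ => NN.qpow i d φ h).congr
    fun N => by simp only [Two.qi, sum_smul]

lemma NN.qipow (j k : ℕ) : NN fun N => Two.qi (qv N) j ^ k := by
  induction k with
  | zero => exact fun d φ h => h.congr fun N => by simp
  | succ k ih => exact fun d φ h => (ih d _ (NN.qi j d φ h)).congr fun N => by simp only [pow_succ, mul_smul]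

lemma NN.qd {a r : ℕ} (h : r ≤ a) : NN fun N => qd (qv N) a r := fun d φ hφ =>
  ((NN.qpow r).mul (NN.qi (a - r)) d φ hφ).congr fun N => by
    obtain ⟨s, rfl⟩ := Nat.exists_eq_add_of_le h
    simp only [Two.qd, qi_add, Nat.add_sub_cancel_left, add_sub_cancel_left]

/-- Chains of every length are positive. -/
theorem chain_pos : ∀ n b : ℕ, 1 ≤ b →
    Pos (b + 1 + n) fun N => chain (qv N) (xv N) n b := by
  intro n
  induction n using Nat.strong_induction_on with
  | _ n ih =>
    have hτ : ∀ (m : ℤ) (b : ℕ), m ≤ n → 1 ≤ b → Pos (b + m) fun N => tau (qv N) (xv N) m b := by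
      intro m b hm hb
      rcases le_or_gt m 0 with h0 | h0
      · exact (Pos.zero _).congr fun N => tau_of_nonpos _ _ h0 b
      · obtain ⟨j, rfl⟩ : ∃ j : ℕ, m = (j : ℤ) + 1 := ⟨(m - 1).toNat, by omega⟩
        exact ((ih j (by omega) b hb).cast (by ring)).congr fun N => tau_succ _ _ j b
    have hδ : ∀ (m : ℤ) (a : ℕ), 1 ≤ a → Pos (a + m) fun N => dlta (qv N) (xv N) m a := by
      intro m a ha
      rcases eq_or_ne m 0 with rfl | h0
      · exact ((Pos.base ha).cast (by simp)).congr fun N => dlta_zero _ _ a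
      · exact (Pos.zero _).congr fun N => dlta_of_ne _ _ h0 a
    have two : ∀ b : ℕ, 2 ≤ b → Pos (b + 1 + n) fun N => chain (qv N) (xv N) n b := by
      intro b hb
      have hlead : Pos (b + 1 + n) fun N => lead (qv N) (xv N) (n + 1) n b :=
        Pos.sum (range (n + 1))
          (F := fun t N => qi (qv N) 2 ^ t • dlta (qv N) (xv N) ((n : ℤ) - t) (b + 1 + t))
          fun t _ => NN.qipow 2 t _ _ ((hδ _ _ (by omega)).cast (by push_cast; ring))
      have hY : ∀ i : ℕ, Pos ((b : ℤ) + n - i) fun N =>
          ker2 (qv N) (xv N) (n + 1) ((n : ℤ) - 1 - 2 * i) (1 + i) (b + 1 + i) := by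
        intro i
        refine ((NN.qd (by omega : 1 ≤ 1 + i) _ _ ((hτ _ _ (by omega) (by omega)).cast ?_)).add
          (NN.qi (1 + i) _ _ ((hδ _ _ (by omega)).cast ?_))).add
          (Pos.sum (range (n + 1)) fun t _ => NN.qipow 2 t _ _
            ((NN.qi (1 + i + 1) _ _ ((hδ _ _ (by omega)).cast ?_)).add
              (NN.qd (by omega : 1 ≤ 1 + i + 1) _ _
                ((hτ _ _ (by omega) (by omega)).cast ?_))))
        all_goals (push_cast; ring)
      have hG : Pos (b + 1 + n) fun N =>
          qv N • partG (qv N) (xv N) (n + 1) ((n : ℤ) - 1) 1 (b + 1) :=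
        Pos.scale (Pos.sum (range (n + 1))
          (F := fun i N => (qv N ^ i * Two.esy (xv N) (1 + i)) •
            ker2 (qv N) (xv N) (n + 1) ((n : ℤ) - 1 - 2 * i) (1 + i) (b + 1 + i))
          fun i _ => ((NN.qpow i _ _ ((hY i).esy (1 + i))).cast (by push_cast; ring)).congr
            fun N => mul_smul _ _ _)
      have hK : ∀ k : ℕ, Pos ((n : ℤ) + 1 - k) fun N => ker3 (qv N) (xv N) (b + k) k n := by
        intro k
        refine (Pos.sum (range k) fun l hl => ((NN.qpow l).mul (NN.qipow 2 (k - 1 - l))) _ _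
          ((NN.qd (by omega : 2 ≤ b + k) _ _ ((hδ _ _ (by omega)).cast ?_)).add
            (NN.qd (by rw [mem_range] at hl; omega : 3 ≤ b + k) _ _
              ((hτ _ _ (by omega) (by omega)).cast ?_)))).add
          (NN.qpow k _ _ ((NN.qd (by omega : 1 ≤ b + k) _ _ ((hδ _ _ (by omega)).cast ?_)).add
            (NN.qd (by omega : 2 ≤ b + k) _ _ ((hτ _ _ (by omega) (by omega)).cast ?_))))
        all_goals (push_cast; ring)
      have hH : Pos (b + 1 + n) fun N => partH (qv N) (xv N) (n + 1) n b :=
        Pos.sum (range (n + 1))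
          (F := fun k N => Two.esy (xv N) (b + k) • ker3 (qv N) (xv N) (b + k) k n)
          fun k _ => ((hK k).esy (b + k)).cast (by push_cast; ring)
      exact ((hlead.add hG).add hH).congr fun N =>
        chain_eq (xv N) (qv_ne_one N) n (n + 1) b (by omega)
    intro b hb
    rcases hb.eq_or_lt with rfl | hb
    · have h1 : Pos ((n : ℤ) + 2) fun N => ∑ l ∈ range (n + 1),
          (qi (qv N) (l + 1) • dlta (qv N) (xv N) ((n : ℤ) - l) (l + 2) +
            qd (qv N) (l + 1) 1 • tau (qv N) (xv N) ((n : ℤ) - l) (l + 2)) :=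
        Pos.sum (range (n + 1)) (F := fun l N =>
          qi (qv N) (l + 1) • dlta (qv N) (xv N) ((n : ℤ) - l) (l + 2) +
            qd (qv N) (l + 1) 1 • tau (qv N) (xv N) ((n : ℤ) - l) (l + 2)) fun l _ =>
          (NN.qi (l + 1) _ _ ((hδ _ _ (by omega)).cast (by push_cast; ring))).add
            (NN.qd (by omega : 1 ≤ l + 1) _ _
              ((hτ _ _ (by omega) (by omega)).cast (by push_cast; ring)))
      exact (h1.cast (by push_cast; ring)).congr fun N =>
        chain_one_eq (xv N) (qv_ne_one N) n (n + 1) (by omega)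
    · exact two b hb

lemma Pos.total {d : ℤ} {φ : Fam} (h : Pos d φ) : PosS d fun N => ∑ c, φ N c := by
  induction h with
  | zero d => exact (PosS.zero d).congr fun N => by simp
  | add _ _ ih ih' => exact (ih.add ih').congr fun N => by simp [sum_add_distrib]
  | scale _ ih => exact ih.scale.congr fun N => by simp [mul_sum]
  | esy a _ ih => exact (ih.esy a).congr fun N => by simp [mul_sum]
  | @base l hl =>
    have key : ∀ k, PosS l fun N => qi (qv N) k * Two.esy (xv N) l := by
      intro k
      induction k with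
      | zero => exact (PosS.zero _).congr fun N => by simp [qi_zero]
      | succ k ih =>
        exact (((PosS.one.esy l).cast (zero_add _)).add ih.scale).congr fun N => by
          rw [qi_succ]; ring
    exact (key l).congr fun N => sum_pt (qv_ne_one N) (xv N) l

/-- A new component of one vertex. -/
lemma PosS.isolated {d : ℤ} {S : Sc} (h : PosS d S) :
    Pos (d + 1) fun N c => S N * xv N c := by
  induction h with
  | zero d => exact (Pos.zero _).congr fun N => by funext c; simp
  | add _ _ ih ih' => exact (ih.add ih').congr fun N => by funext c; simp [add_mul]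
  | scale _ ih => exact ih.scale.congr fun N => by funext c; simp [mul_assoc]
  | one =>
    exact ((Pos.base (le_refl 1)).cast (by simp)).congr fun N => by funext c; simp [pt_one]
  | @esy d S a _ ih =>
    exact ((ih.esy a).cast (by ring)).congr fun N => by funext c; simp [mul_assoc]

/-- Two marked vertices after which every chain is positive. -/
def Pos2 (d : ℤ) (ψ : ∀ N, V2 N (PR N)) : Prop :=
  ∀ j : ℕ, Pos (d + j) fun N => forget ((push (qv N) (xv N) ^ j) (ψ N))

lemma Pos.up {d : ℤ} {φ : Fam} (h : Pos d φ) :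
    Pos2 (d + 1) fun N => Two.up (qv N) (xv N) (φ N) := by
  intro j
  induction h with
  | zero d => exact (Pos.zero _).congr fun N => by simp
  | add _ _ ih ih' => exact (ih.add ih').congr fun N => by simp
  | scale _ ih => exact ih.scale.congr fun N => by simp
  | @esy d φ a _ ih => exact ((ih.esy a).cast (by ring)).congr fun N => by simp
  | @base l hl => exact chain_pos j l hl

lemma Pos2.push {d : ℤ} {ψ : ∀ N, V2 N (PR N)} (h : Pos2 d ψ) :
    Pos2 (d + 1) fun N => Two.push (qv N) (xv N) (ψ N) := fun j =>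
  ((h (j + 1)).cast (by push_cast; ring)).congr fun N => by
    rw [pow_succ, Module.End.mul_apply]

lemma Pos2.forget {d : ℤ} {ψ : ∀ N, V2 N (PR N)} (h : Pos2 d ψ) :
    Pos d fun N => Two.forget (ψ N) :=
  ((h 0).cast (by simp)).congr fun N => by simp

end Vale.Agent.P066.Two
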