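import Vale.Agent.P066.Two.Colour

/-!
The recursion for the pointed functions of squares of paths glued to cliques, solved in a form
without signs.
-/

namespace Vale.Agent.P066.Two

open Finset

variable {R : Type*} [CommRing R] {N : ℕ} (q : R) (x : Fin N → R)

/-- A clique of `m` vertices, an adjacent vertex, then `j` vertices adjacent to their two
predecessors. -/
noncomputable def chain (j m : ℕ) : V1 N R := forget ((push q x ^ j) (up q x (pt q x m)))

/-- The same `j` vertices after an antisymmetric state. -/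
noncomputable def chainA (j a b : ℕ) : V1 N R := forget ((push q x ^ j) (asym q x a b))

/-- `chain` at integer length, shifted by one and zero for nonpositive lengths. -/
noncomputable def tau (n : ℤ) (b : ℕ) : V1 N R := if 0 < n then chain q x (n - 1).toNat b else 0

/-- The pointed clique at length zero. -/
noncomputable def dlta (n : ℤ) (a : ℕ) : V1 N R := if n = 0 then pt q x a else 0

lemma tau_succ (n b : ℕ) : tau q x ((n : ℤ) + 1) b = chain q x n b := by
  rw [tau, if_pos (by omega)]; simp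

lemma tau_of_nonpos {n : ℤ} (h : n ≤ 0) (b : ℕ) : tau q x n b = 0 := if_neg (by omega)

lemma dlta_zero (a : ℕ) : dlta q x 0 a = pt q x a := if_pos rfl

lemma dlta_of_ne {n : ℤ} (h : n ≠ 0) (a : ℕ) : dlta q x n a = 0 := if_neg h

/-- The one-step part of `chainA`. -/
noncomputable def ker1 (n : ℤ) (a c : ℕ) : V1 N R :=
  qi q a • dlta q x n c + qd q a 1 • (tau q x n c - dlta q x (n - 1) (c + 1)) +
    (q * qi q a - qi q 2 * qd q a 1) • tau q x (n - 1) (c + 1)

/-- The summed part of `chainA`. -/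
noncomputable def ker2 (M : ℕ) (n : ℤ) (a c : ℕ) : V1 N R :=
  qd q a 1 • tau q x n c + qi q a • dlta q x n c +
    ∑ t ∈ range M, qi q 2 ^ t • (qi q (a + 1) • dlta q x (n - 1 - t) (c + 1 + t) +
      qd q (a + 1) 1 • tau q x (n - 1 - t) (c + 1 + t))

/-- The coefficient of the clique that closes last. -/
noncomputable def ker3 (B k : ℕ) (n : ℤ) : V1 N R :=
  ∑ l ∈ range k, (q ^ l * qi q 2 ^ (k - 1 - l)) •
      (qd q B 2 • dlta q x (n - k - l) (l + 1) + qd q B 3 • tau q x (n - k - l) (l + 1)) +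
    q ^ k • (qd q B 1 • dlta q x (n - 2 * k) (k + 1) + qd q B 2 • tau q x (n - 2 * k) (k + 1))

/-- The term in which no clique closes. -/
noncomputable def lead (M : ℕ) (n : ℤ) (b : ℕ) : V1 N R :=
  ∑ t ∈ range M, qi q 2 ^ t • dlta q x (n - t) (b + 1 + t)

/-- The terms in which the first clique closes first. -/
noncomputable def partG (M : ℕ) (n : ℤ) (a c : ℕ) : V1 N R :=
  ∑ i ∈ range M, (q ^ i * esy x (a + i)) • ker2 q x M (n - 2 * i) (a + i) (c + i)

/-- The terms in which the first clique closes last. -/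
noncomputable def partH (M : ℕ) (n : ℤ) (b : ℕ) : V1 N R :=
  ∑ k ∈ range M, esy x (b + k) • ker3 q x (b + k) k n

lemma ker1_neg {n : ℤ} (h : n < 0) (a c : ℕ) : ker1 q x n a c = 0 := by
  simp [ker1, dlta_of_ne q x (by omega : n ≠ 0), dlta_of_ne q x (by omega : n - 1 ≠ 0),
    tau_of_nonpos q x (by omega : n ≤ 0), tau_of_nonpos q x (by omega : n - 1 ≤ 0)]

lemma ker2_neg {n : ℤ} (h : n < 0) (M a c : ℕ) : ker2 q x M n a c = 0 := by
  rw [ker2, sum_eq_zero fun t _ => by
    rw [dlta_of_ne q x (by omega : n - 1 - t ≠ 0), tau_of_nonpos q x (by omega : n - 1 - t ≤ 0)]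
    simp]
  simp [dlta_of_ne q x (by omega : n ≠ 0), tau_of_nonpos q x (by omega : n ≤ 0)]

lemma ker3_small {k : ℕ} {n : ℤ} (h : n < k) (B : ℕ) : ker3 q x B k n = 0 := by
  rw [ker3, sum_eq_zero fun l _ => by
    rw [dlta_of_ne q x (by omega : n - k - l ≠ 0), tau_of_nonpos q x (by omega : n - k - l ≤ 0)]
    simp]
  simp [dlta_of_ne q x (by omega : n - 2 * k ≠ 0),
    tau_of_nonpos q x (by omega : n - 2 * k ≤ 0)]

lemma lead_neg {n : ℤ} (h : n < 0) (M b : ℕ) : lead q x M n b = 0 :=
  sum_eq_zero fun t _ => by rw [dlta_of_ne q x (by omega : n - t ≠ 0)]; simp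

lemma partG_neg {n : ℤ} (h : n < 0) (M a c : ℕ) : partG q x M n a c = 0 :=
  sum_eq_zero fun i _ => by rw [ker2_neg q x (by omega : n - 2 * i < 0)]; simp

lemma partH_neg {n : ℤ} (h : n < 0) (M b : ℕ) : partH q x M n b = 0 :=
  sum_eq_zero fun k _ => by rw [ker3_small q x (by omega : n < k)]; simp

variable [IsDomain R] {q} (hq : q ≠ 1)
include hq

lemma chain_zero (m : ℕ) :
    chain q x 0 m = pt q x (m + 1) + (qd q m 1 * esy x m) • pt q x 1 := by
  simp [chain, forget_up hq x]

lemma chain_succ (j m : ℕ) :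
    chain q x (j + 1) m = qi q 2 • chain q x j (m + 1) +
      (qd q m 2 * esy x m) • chain q x j 1 + q • chainA q x j 1 (m + 1) := by
  simp only [chain, chainA, pow_succ, Module.End.mul_apply, push_up hq x, map_add, map_smul]

lemma chainA_add_two (j a b : ℕ) :
    chainA q x (j + 2) a b = q • chainA q x j (a + 1) (b + 1) +
      (esy x a • (qd q a 1 • chain q x (j + 1) b +
          (q * qi q a - qi q 2 * qd q a 1) • chain q x j (b + 1)) -
        esy x b • (qd q b 1 • chain q x (j + 1) a +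
          (q * qi q b - qi q 2 * qd q b 1) • chain q x j (a + 1))) := by
  simp only [chain, chainA, pow_succ, Module.End.mul_apply, push_push_asym hq x, map_add,
    map_sub, map_smul]

lemma chainA_eq : ∀ (j M a c : ℕ), j < 2 * M → chainA q x j a c =
    ∑ i ∈ range M, q ^ i • (esy x (a + i) • ker1 q x ((j : ℤ) - 2 * i) (a + i) (c + i) -
      esy x (c + i) • ker1 q x ((j : ℤ) - 2 * i) (c + i) (a + i)) := by
  intro j
  induction j using Nat.strong_induction_on with
  | _ j ih =>
    intro M a c hM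
    obtain ⟨M, rfl⟩ : ∃ M', M = M' + 1 := ⟨M - 1, by omega⟩
    rw [sum_range_succ']
    rcases j with _ | _ | j
    · rw [sum_eq_zero fun i _ => by
        rw [ker1_neg q x (by omega), ker1_neg q x (by omega)]; simp]
      simp [chainA, forget_asym hq x, ker1, dlta_zero,
        dlta_of_ne q x (show (-1 : ℤ) ≠ 0 by omega), tau_of_nonpos q x (le_refl (0 : ℤ)),
        tau_of_nonpos q x (show (-1 : ℤ) ≤ 0 by omega), smul_smul, mul_comm]
    · rw [sum_eq_zero fun i _ => by
        rw [ker1_neg q x (by omega), ker1_neg q x (by omega)]; simp]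
      have e : tau q x (1 : ℤ) = chain q x 0 := by funext b; simpa using tau_succ q x 0 b
      simp [chainA, forget_push_asym, ker1, dlta_zero, dlta_of_ne q x (one_ne_zero (α := ℤ)),
        tau_of_nonpos q x (le_refl (0 : ℤ)), e, chain_zero x hq, smul_smul]
      module
    · rw [chainA_add_two x hq, ih j (by omega) M (a + 1) (c + 1) (by omega), smul_sum]
      congr 1
      · refine sum_congr rfl fun i _ => ?_
        rw [smul_smul, pow_succ']
        push_cast
        ring_nf
      · simp only [pow_zero, one_smul, Nat.cast_zero, mul_zero, sub_zero, add_zero, ker1]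
        have e1 : tau q x (((j + 1 + 1 : ℕ) : ℤ)) = chain q x (j + 1) := by
          funext b; rw [← tau_succ q x (j + 1) b]; push_cast; ring_nf
        have e2 : tau q x (((j + 1 + 1 : ℕ) : ℤ) - 1) = chain q x j := by
          funext b; rw [← tau_succ q x j b]; push_cast; ring_nf
        rw [e1, e2, dlta_of_ne q x (by omega), dlta_of_ne q x (by omega),
          dlta_of_ne q x (by omega), dlta_of_ne q x (by omega)]
        simp

omit [IsDomain R] hq

lemma ker2_sub {M : ℕ} {n : ℤ} (h : n ≤ M) (a c : ℕ) :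
    ker2 q x M n a c = qi q 2 • ker2 q x M (n - 1) a (c + 1) + ker1 q x n a c := by
  obtain ⟨g, hg⟩ : ∃ g : ℕ → V1 N R, g = fun t : ℕ =>
      qi q 2 ^ t • (qi q (a + 1) • dlta q x (n - 1 - t) (c + 1 + t) +
        qd q (a + 1) 1 • tau q x (n - 1 - t) (c + 1 + t)) := ⟨_, rfl⟩
  have hs : qi q 2 • ∑ t ∈ range M, qi q 2 ^ t •
      (qi q (a + 1) • dlta q x (n - 1 - 1 - t) (c + 1 + 1 + t) +
        qd q (a + 1) 1 • tau q x (n - 1 - 1 - t) (c + 1 + 1 + t)) =
      ∑ t ∈ range M, g (t + 1) := by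
    rw [smul_sum]
    refine sum_congr rfl fun t _ => ?_
    rw [hg, smul_smul, ← pow_succ']
    push_cast
    ring_nf
  have hgM : g M = 0 := by
    rw [hg]
    simp [dlta_of_ne q x (by omega : n - 1 - M ≠ 0),
      tau_of_nonpos q x (by omega : n - 1 - M ≤ 0)]
  have h2 : ∑ t ∈ range M, g t = (∑ t ∈ range M, g (t + 1)) + g 0 := by
    rw [← sum_range_succ', sum_range_succ, hgM, add_zero]
  have hg0 : g 0 = qi q (a + 1) • dlta q x (n - 1) (c + 1) +
      qd q (a + 1) 1 • tau q x (n - 1) (c + 1) := by simp [hg]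
  have hK : ker2 q x M n a c = qd q a 1 • tau q x n c + qi q a • dlta q x n c +
      ((∑ t ∈ range M, g (t + 1)) + g 0) := by rw [ker2, ← h2, hg]
  rw [hK, ker2, smul_add, smul_add, hs, hg0, ker1]
  simp only [qd, qi_one, qi_succ q a, qi_two]
  module

lemma partG_sub {M : ℕ} {n : ℤ} (h : n ≤ M) (a c : ℕ) :
    partG q x M n a c = qi q 2 • partG q x M (n - 1) a (c + 1) +
      ∑ i ∈ range M, (q ^ i * esy x (a + i)) • ker1 q x (n - 2 * i) (a + i) (c + i) := by
  rw [partG, partG, smul_sum, ← sum_add_distrib]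
  refine sum_congr rfl fun i _ => ?_
  rw [ker2_sub x (by omega : n - 2 * i ≤ (M : ℤ))]
  rw [show n - 1 - 2 * (i : ℤ) = n - 2 * i - 1 by ring,
    show c + 1 + i = c + i + 1 by ring]
  module

lemma ker3_succ (B k : ℕ) (n : ℤ) :
    ker3 q x B (k + 1) (n + 1) =
      qi q 2 • ker3 q x B k n - q ^ (k + 1) • ker1 q x (n - 2 * k) B (k + 1) := by
  rw [ker3, sum_range_succ, ker3, ker1, smul_add (qi q 2), smul_sum]
  have hs : ∀ l ∈ range k, (q ^ l * qi q 2 ^ (k + 1 - 1 - l)) •
      (qd q B 2 • dlta q x (n + 1 - (k + 1 : ℕ) - l) (l + 1) +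
        qd q B 3 • tau q x (n + 1 - (k + 1 : ℕ) - l) (l + 1)) =
      qi q 2 • (q ^ l * qi q 2 ^ (k - 1 - l)) •
      (qd q B 2 • dlta q x (n - k - l) (l + 1) + qd q B 3 • tau q x (n - k - l) (l + 1)) := by
    intro l hl
    rw [mem_range] at hl
    rw [show k + 1 - 1 - l = k - 1 - l + 1 by omega,
      show n + 1 - ((k + 1 : ℕ) : ℤ) - l = n - k - l by push_cast; ring, smul_smul, pow_succ]
    ring_nf
  rw [sum_congr rfl hs, show n + 1 - ((k + 1 : ℕ) : ℤ) - k = n - 2 * k by push_cast; ring,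
    show n + 1 - 2 * ((k + 1 : ℕ) : ℤ) = n - 2 * k - 1 by push_cast; ring,
    show k + 1 - 1 - k = 0 by omega]
  have h3 : qi q 3 = 1 + q + q ^ 2 := by simp [qi, sum_range_succ]
  simp only [qd, qi_one, qi_two, h3]
  module

lemma partH_succ {M n : ℕ} (h : n + 1 < M) (b : ℕ) :
    partH q x M ((n : ℤ) + 1) b = (qd q b 2 * esy x b) • chain q x n 1 +
      qi q 2 • partH q x M n (b + 1) -
      q • ∑ i ∈ range M, (q ^ i * esy x (b + 1 + i)) • ker1 q x ((n : ℤ) - 2 * i) (b + 1 + i) (1 + i) := by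
  obtain ⟨M, rfl⟩ : ∃ M', M = M' + 1 := ⟨M - 1, by omega⟩
  rw [partH, sum_range_succ', partH, smul_sum, sum_range_succ, sum_range_succ (n := M),
    ker3_small q x (by omega : (n : ℤ) < M),
    ker1_neg q x (by omega : (n : ℤ) - 2 * M < 0)]
  have h0 : ker3 q x b 0 ((n : ℤ) + 1) = qd q b 2 • chain q x n 1 := by
    simp [ker3, dlta_of_ne q x (by omega : (n : ℤ) + 1 ≠ 0), tau_succ]
  have hs : ∑ k ∈ range M, esy x (b + (k + 1)) • ker3 q x (b + (k + 1)) (k + 1) ((n : ℤ) + 1) =
      ∑ k ∈ range M, qi q 2 • (esy x (b + 1 + k) • ker3 q x (b + 1 + k) k n) -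
        q • ∑ k ∈ range M,
          (q ^ k * esy x (b + 1 + k)) • ker1 q x ((n : ℤ) - 2 * k) (b + 1 + k) (1 + k) := by
    rw [smul_sum, ← sum_sub_distrib]
    refine sum_congr rfl fun k _ => ?_
    rw [ker3_succ, show b + (k + 1) = b + 1 + k by ring, show 1 + k = k + 1 by ring]
    module
  rw [hs, add_zero b, h0]
  module

include hq
variable [IsDomain R]

/-- The general form of `chain`. -/
lemma chain_eq : ∀ (n M b : ℕ), n < M →
    chain q x n b = lead q x M n b + q • partG q x M ((n : ℤ) - 1) 1 (b + 1) + partH q x M n b := by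
  intro n
  induction n with
  | zero =>
    intro M b hM
    obtain ⟨M, rfl⟩ : ∃ M', M = M' + 1 := ⟨M - 1, by omega⟩
    rw [chain_zero x hq, partG_neg q x (by omega), lead, partH, sum_range_succ', sum_range_succ']
    rw [sum_eq_zero fun i _ => by rw [dlta_of_ne q x (by omega)]; simp,
      sum_eq_zero fun i _ => by rw [ker3_small q x (by omega)]; simp]
    simp [ker3, dlta_zero, tau_of_nonpos q x (le_refl (0 : ℤ)), smul_smul, mul_comm]
  | succ n ih =>
    intro M b hM
    have hn : n < M := by omega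
    rw [chain_succ x hq, ih M (b + 1) hn, chainA_eq x hq n M 1 (b + 1) (by omega)]
    have hl : lead q x M ((n : ℤ) + 1) b = qi q 2 • lead q x M n (b + 1) := by
      obtain ⟨M, rfl⟩ : ∃ M', M = M' + 1 := ⟨M - 1, by omega⟩
      rw [lead, sum_range_succ', lead, smul_sum, sum_range_succ (n := M),
        dlta_of_ne q x (by omega : (n : ℤ) - M ≠ 0),
        dlta_of_ne q x (by omega : (n : ℤ) + 1 - ((0 : ℕ) : ℤ) ≠ 0)]
      simp only [smul_zero, add_zero]
      refine sum_congr rfl fun t _ => ?_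
      rw [smul_smul, ← pow_succ']
      push_cast
      ring_nf
    push_cast
    rw [hl, partH_succ x hM, show (n : ℤ) + 1 - 1 = n by ring,
      partG_sub x (by omega : (n : ℤ) ≤ (M : ℤ)) 1 (b + 1)]
    simp only [smul_sub, sum_sub_distrib, smul_smul]
    module

end Vale.Agent.P066.Two
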