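import Vale.Agent.P066.Two.Rec

/-!
A sum rule among the pointed functions, which gives a form without signs for the chains that
start at a single vertex.
-/

namespace Vale.Agent.P066.Two

open Finset

variable {R : Type*} [CommRing R] {N : ℕ} (q : R) (x : Fin N → R)

/-- A term of the sum rule. -/
noncomputable def ruleTerm (n : ℤ) (l : ℕ) : V1 N R :=
  qi q l • dlta q x (n - l) (l + 1) + qd q l 1 • tau q x (n - l) (l + 1)

/-- The sum rule. -/
noncomputable def rule (M : ℕ) (n : ℤ) : V1 N R := ∑ l ∈ range M, ruleTerm q x n l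

lemma ruleTerm_of_lt {n : ℤ} {l : ℕ} (h : n < l) : ruleTerm q x n l = 0 := by
  simp [ruleTerm, dlta_of_ne q x (by omega : n - l ≠ 0),
    tau_of_nonpos q x (by omega : n - l ≤ 0)]

lemma rule_neg {n : ℤ} (h : n < 0) (M : ℕ) : rule q x M n = 0 :=
  sum_eq_zero fun l _ => ruleTerm_of_lt q x (by omega)

variable {q}

/-- The convolution of `[l] - 1` with powers of `[2]`. -/
lemma conv_two : ∀ p : ℕ, ∑ l ∈ range p, qd q l 1 * qi q 2 ^ (p - 1 - l) = -qi q p := by
  intro p
  induction p with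
  | zero => simp [qi]
  | succ p ih =>
    rw [sum_range_succ, show p + 1 - 1 - p = 0 by omega, pow_zero, mul_one,
      sum_congr rfl fun l (hl : l ∈ range p) =>
        show qd q l 1 * qi q 2 ^ (p + 1 - 1 - l) = qi q 2 * (qd q l 1 * qi q 2 ^ (p - 1 - l)) by
          rw [mem_range] at hl
          rw [show p + 1 - 1 - l = p - 1 - l + 1 by omega, pow_succ]; ring,
      ← mul_sum, ih, qi_succ q p, qd, qi_one, qi_two]
    ring

/-- A triangular rearrangement of a double sum. -/
lemma sum_tri {α : Type*} [AddCommMonoid α] (M : ℕ) (f : ℕ → ℕ → α)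
    (hf : ∀ l k, M ≤ l + k → f l k = 0) :
    ∑ l ∈ range M, ∑ k ∈ range M, f l k = ∑ p ∈ range M, ∑ l ∈ range (p + 1), f l (p - l) := by
  rw [sum_range_diag_flip M f]
  refine sum_congr rfl fun l _ => (sum_subset (range_mono (Nat.sub_le M l)) fun k _ hk => ?_).symm
  rw [mem_range] at hk
  exact hf l k (by omega)

/-- Convolution of a shifted sequence with the weights of `conv_two`. -/
lemma conv_shift {M : ℕ} (Y : ℕ → V1 N R) (hY : ∀ v, M ≤ v → Y v = 0) :
    ∑ l ∈ range M, ∑ t ∈ range M, (qd q l 1 * qi q 2 ^ t) • Y (l + t + 1) =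
      -∑ v ∈ range M, qi q v • Y v := by
  rw [sum_tri M _ fun l t h => by rw [hY _ (by omega)]; simp]
  have h1 : ∀ u ∈ range M, ∑ l ∈ range (u + 1),
      (qd q l 1 * qi q 2 ^ (u - l)) • Y (l + (u - l) + 1) = -(qi q (u + 1) • Y (u + 1)) := by
    intro u _
    rw [← neg_smul, ← conv_two (q := q) (u + 1), sum_smul]
    refine sum_congr rfl fun l hl => ?_
    rw [mem_range] at hl
    rw [show l + (u - l) = u by omega, show u + 1 - 1 - l = u - l by omega]
  rw [sum_congr rfl h1, sum_neg_distrib, neg_inj]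
  have h2 := sum_range_succ' (fun v => qi q v • Y v) M
  rw [sum_range_succ, hY M le_rfl, smul_zero, add_zero, qi_zero, zero_smul, add_zero] at h2
  exact h2.symm

/-- The terms in which no clique closes. -/
lemma rule_lead {M : ℕ} {n : ℤ} (h : n < M) :
    ∑ l ∈ range M, qd q l 1 • lead q x M (n - l - 1) (l + 1) =
      -∑ l ∈ range M, qi q l • dlta q x (n - l) (l + 1) := by
  rw [← conv_shift (fun v => dlta q x (n - v) (v + 1))
    fun v hv => dlta_of_ne q x (by omega : n - v ≠ 0) _]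
  simp only [lead, smul_sum, smul_smul]
  refine sum_congr rfl fun l _ => sum_congr rfl fun t _ => ?_
  congr 2
  · push_cast; ring
  · ring

/-- The terms in which the first clique closes first, for one value of its size. -/
lemma rule_ker2 {M : ℕ} {n : ℤ} (h : n < M) (a : ℕ) :
    ∑ l ∈ range M, qd q l 1 • ker2 q x M (n - l) a (a + 1 + l) =
      -∑ u ∈ range M, (qi q (a + u) • dlta q x (n - u) (a + u + 1) +
        qd q (a + u) 1 • tau q x (n - u) (a + u + 1)) := by
  obtain ⟨Y, hYd⟩ : ∃ Y : ℕ → V1 N R, Y = fun v : ℕ =>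
      qi q (a + 1) • dlta q x (n - v) (a + v + 1) +
        qd q (a + 1) 1 • tau q x (n - v) (a + v + 1) := ⟨_, rfl⟩
  have hY : ∀ v, M ≤ v → Y v = 0 := fun v hv => by
    simp [hYd, dlta_of_ne q x (by omega : n - v ≠ 0), tau_of_nonpos q x (by omega : n - v ≤ 0)]
  have e : ∀ l ∈ range M, qd q l 1 • ker2 q x M (n - l) a (a + 1 + l) =
      qd q l 1 • (qd q a 1 • tau q x (n - l) (a + l + 1) +
        qi q a • dlta q x (n - l) (a + l + 1)) +
      ∑ t ∈ range M, (qd q l 1 * qi q 2 ^ t) • Y (l + t + 1) := by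
    intro l _
    rw [ker2, smul_add, smul_sum, show a + 1 + l = a + l + 1 by ring]
    congr 1
    refine sum_congr rfl fun t _ => ?_
    simp only [hYd, smul_smul]
    rw [show n - ((l + t + 1 : ℕ) : ℤ) = n - l - 1 - t by push_cast; ring,
      show a + (l + t + 1) + 1 = a + l + 1 + 1 + t by ring]
  rw [sum_congr rfl e, sum_add_distrib, conv_shift Y hY, ← sub_eq_add_neg, ← sum_sub_distrib,
    ← sum_neg_distrib]
  refine sum_congr rfl fun v _ => ?_
  simp only [hYd, qd, qi_one, qi_add]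
  module

/-- The terms in which the first clique closes last, for one value of its size. -/
lemma rule_ker3 (p : ℕ) (n : ℤ) :
    ∑ l ∈ range (p + 1), qd q l 1 • ker3 q x (p + 1) (p - l) (n - l - 1) =
      -(q ^ (p + 1) • ∑ i ∈ range (p + 1), ruleTerm q x (n - (p + 1 : ℕ)) i) := by
  obtain ⟨m, hm⟩ : ∃ m : ℤ, m = n - (p + 1 : ℕ) := ⟨_, rfl⟩
  obtain ⟨A, hA⟩ : ∃ A : ℕ → V1 N R, A = fun i : ℕ =>
      qd q (p + 1) 2 • dlta q x (m - i) (i + 1) + qd q (p + 1) 3 • tau q x (m - i) (i + 1) :=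
    ⟨_, rfl⟩
  obtain ⟨B, hB⟩ : ∃ B : ℕ → V1 N R, B = fun i : ℕ =>
      qd q (p + 1) 1 • dlta q x (m - i) (i + 1) + qd q (p + 1) 2 • tau q x (m - i) (i + 1) :=
    ⟨_, rfl⟩
  have e : ∀ l ∈ range (p + 1), qd q l 1 • ker3 q x (p + 1) (p - l) (n - l - 1) =
      (∑ i ∈ range (p - l), (qd q l 1 * (q ^ i * qi q 2 ^ (p - i - 1 - l))) • A i) +
        (qd q l 1 * q ^ (p - l)) • B (p - l) := by
    intro l hl
    rw [mem_range] at hl
    rw [ker3, smul_add, smul_sum, smul_smul, hB]
    congr 1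
    · refine sum_congr rfl fun i _ => ?_
      rw [smul_smul, hA, show p - l - 1 - i = p - i - 1 - l by omega,
        show n - (l : ℤ) - 1 - ((p - l : ℕ) : ℤ) - i = m - i by omega]
    · rw [show n - (l : ℤ) - 1 - 2 * ((p - l : ℕ) : ℤ) = m - ((p - l : ℕ) : ℤ) by omega]
  rw [sum_congr rfl e, sum_add_distrib, sum_comm' (t' := range (p + 1))
    (s' := fun i => range (p - i)) (h := fun l i => by simp only [mem_range]; omega),
    ← sum_range_reflect (fun l => (qd q l 1 * q ^ (p - l)) • B (p - l)) (p + 1),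
    ← sum_add_distrib, smul_sum, ← sum_neg_distrib, ← hm]
  refine sum_congr rfl fun i hi => ?_
  rw [mem_range] at hi
  obtain ⟨r, rfl⟩ : ∃ r, p = i + r := ⟨p - i, by omega⟩
  have hc : ∑ l ∈ range r, qd q l 1 * (q ^ i * qi q 2 ^ (r - 1 - l)) = -(q ^ i * qi q r) := by
    rw [← mul_neg, ← conv_two (q := q) r, mul_sum]
    exact sum_congr rfl fun l _ => by ring
  rw [show i + r + 1 - 1 - i = r by omega, show i + r - r = i by omega,
    show i + r - i = r by omega, ← sum_smul, hc, hA, hB, ruleTerm]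
  have h3 : qi q 3 = 1 + q + q ^ 2 := by simp [qi, sum_range_succ]
  have hr : q ^ r = 1 + (q - 1) * qi q r := by rw [qi_mul]; ring
  simp only [qd, qi_one, qi_two, h3, show i + r + 1 = 1 + (r + i) by ring, qi_add, pow_add, hr,
    pow_one]
  module

variable [IsDomain R] (hq : q ≠ 1)
include hq

lemma tau_eq {M : ℕ} {m : ℤ} (h : m ≤ M) (b : ℕ) :
    tau q x m b = lead q x M (m - 1) b + q • partG q x M (m - 2) 1 (b + 1) +
      partH q x M (m - 1) b := by
  rcases le_or_gt m 0 with h0 | h0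
  · rw [tau_of_nonpos q x h0, lead_neg q x (by omega), partG_neg q x (by omega),
      partH_neg q x (by omega)]
    simp
  · obtain ⟨j, rfl⟩ : ∃ j : ℕ, m = (j : ℤ) + 1 := ⟨(m - 1).toNat, by omega⟩
    rw [tau_succ, chain_eq x hq j M b (by omega), add_sub_cancel_right,
      show (j : ℤ) + 1 - 2 = j - 1 by ring]

lemma rule_rec {M : ℕ} {n : ℤ} (h : n < M) :
    rule q x M n =
      -∑ p ∈ range M, (q ^ (p + 1) * esy x (p + 1)) • rule q x M (n - (p + 1 : ℕ)) := by
  have e : ∀ l ∈ range M, ruleTerm q x n l = qi q l • dlta q x (n - l) (l + 1) +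
      qd q l 1 • lead q x M (n - l - 1) (l + 1) +
      (∑ i ∈ range M, (q ^ (i + 1) * esy x (i + 1)) •
        (qd q l 1 • ker2 q x M (n - 2 * (i + 1 : ℕ) - l) (i + 1) (i + 1 + 1 + l))) +
      ∑ k ∈ range M, esy x (l + 1 + k) • (qd q l 1 • ker3 q x (l + 1 + k) k (n - l - 1)) := by
    intro l _
    have hG : qd q l 1 • q • partG q x M (n - l - 2) 1 (l + 1 + 1) =
        ∑ i ∈ range M, (q ^ (i + 1) * esy x (i + 1)) •
          (qd q l 1 • ker2 q x M (n - 2 * (i + 1 : ℕ) - l) (i + 1) (i + 1 + 1 + l)) := by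
      rw [partG, smul_sum, smul_sum]
      refine sum_congr rfl fun i _ => ?_
      rw [show n - (l : ℤ) - 2 - 2 * i = n - 2 * (i + 1 : ℕ) - l by push_cast; ring,
        show 1 + i = i + 1 by ring, show l + 1 + 1 + i = i + 1 + 1 + l by ring, pow_succ']
      module
    have hH : qd q l 1 • partH q x M (n - l - 1) (l + 1) =
        ∑ k ∈ range M, esy x (l + 1 + k) • (qd q l 1 • ker3 q x (l + 1 + k) k (n - l - 1)) := by
      rw [partH, smul_sum]
      exact sum_congr rfl fun k _ => smul_comm _ _ _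
    rw [ruleTerm, tau_eq x hq (M := M) (by omega : n - l ≤ (M : ℤ)) (l + 1), smul_add, smul_add,
      hG, hH]
    abel
  have hH : ∑ l ∈ range M, ∑ k ∈ range M,
        esy x (l + 1 + k) • (qd q l 1 • ker3 q x (l + 1 + k) k (n - l - 1)) =
      ∑ p ∈ range M, esy x (p + 1) •
        -(q ^ (p + 1) • ∑ i ∈ range (p + 1), ruleTerm q x (n - (p + 1 : ℕ)) i) := by
    rw [sum_tri M _ fun l k hlk => by rw [ker3_small q x (by omega)]; simp]
    refine sum_congr rfl fun p _ => ?_
    rw [← rule_ker3 x p n, smul_sum]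
    refine sum_congr rfl fun l hl => ?_
    rw [mem_range] at hl
    rw [show l + 1 + (p - l) = p + 1 by omega]
  have hfull : ∀ p : ℕ, rule q x M (n - (p + 1 : ℕ)) =
      ∑ i ∈ range (p + 1), ruleTerm q x (n - (p + 1 : ℕ)) i +
        ∑ u ∈ range M, ruleTerm q x (n - (p + 1 : ℕ)) (p + 1 + u) := by
    intro p
    rw [← sum_range_add, rule]
    refine sum_subset (range_mono (by omega)) fun l _ hl => ruleTerm_of_lt q x ?_
    rw [mem_range] at hl
    omega
  rw [rule, sum_congr rfl e, sum_add_distrib, sum_add_distrib, sum_add_distrib,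
    rule_lead x h, hH, add_neg_cancel, zero_add, sum_comm, ← sum_neg_distrib, ← sum_add_distrib]
  refine sum_congr rfl fun p _ => ?_
  rw [← smul_sum, rule_ker2 x (by omega : n - 2 * (p + 1 : ℕ) < (M : ℤ)), hfull]
  have hu : ∑ u ∈ range M, (qi q (p + 1 + u) •
        dlta q x (n - 2 * (p + 1 : ℕ) - u) (p + 1 + u + 1) +
      qd q (p + 1 + u) 1 • tau q x (n - 2 * (p + 1 : ℕ) - u) (p + 1 + u + 1)) =
      ∑ u ∈ range M, ruleTerm q x (n - (p + 1 : ℕ)) (p + 1 + u) := by
    refine sum_congr rfl fun u _ => ?_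
    rw [ruleTerm, show n - 2 * ((p + 1 : ℕ) : ℤ) - u =
      n - ((p + 1 : ℕ) : ℤ) - ((p + 1 + u : ℕ) : ℤ) by push_cast; ring]
  rw [hu]
  module

/-- The sum rule. -/
theorem rule_eq_zero (M : ℕ) : ∀ n : ℕ, n < M → rule q x M (n : ℤ) = 0 := by
  intro n
  induction n using Nat.strong_induction_on with
  | _ n ih =>
    intro hn
    rw [rule_rec x hq (by omega), neg_eq_zero]
    refine sum_eq_zero fun p _ => ?_
    rcases lt_or_ge n (p + 1) with h | h
    · rw [rule_neg q x (by omega), smul_zero]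
    · rw [← Nat.cast_sub h, ih _ (by omega) (by omega), smul_zero]

/-- Chains that start at a single vertex, without signs. -/
theorem chain_one_eq (n M : ℕ) (h : n < M) :
    chain q x n 1 = ∑ l ∈ range M, (qi q (l + 1) • dlta q x ((n : ℤ) - l) (l + 2) +
      qd q (l + 1) 1 • tau q x ((n : ℤ) - l) (l + 2)) := by
  have h0 := rule_eq_zero x hq (M + 1) (n + 1) (by omega)
  have e : ∀ l : ℕ, ruleTerm q x ((n + 1 : ℕ) : ℤ) (l + 1) =
      qi q (l + 1) • dlta q x ((n : ℤ) - l) (l + 2) +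
      qd q (l + 1) 1 • tau q x ((n : ℤ) - l) (l + 2) := fun l => by
    rw [ruleTerm, show ((n + 1 : ℕ) : ℤ) - ((l + 1 : ℕ) : ℤ) = (n : ℤ) - l by push_cast; ring]
  rw [rule, sum_range_succ', sum_congr rfl fun l _ => e l] at h0
  have e0 : ruleTerm q x ((n + 1 : ℕ) : ℤ) 0 = -chain q x n 1 := by
    simp [ruleTerm, qd, qi_zero, qi_one, tau_succ]
  rw [e0, ← sub_eq_add_neg, sub_eq_zero] at h0
  exact h0.symm

end Vale.Agent.P066.Two
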